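import Vale.Agent.P018.R2.H49.Row

/-!
P018: admissible ranges of the exponent for single pairs `(d, k)`, by small tables.
-/

namespace Vale.Agent.P018.H49

open Vale.Agent.P018.K2
open Vale.Agent.P018.K3 (fRow cs38)

/-- rows for `(6, 3)`, from `5000` to `5625` (units `1 / 10000`) -/
def tab1 : List (ℕ × ℕ × List (ℕ × ℕ)) :=
  [(5000, 5302, [(0, 10000), (0, 10000), (0, 8695), (0, 7885)]),
   (5302, 5466, [(0, 10000), (0, 9449), (0, 8080), (0, 7350)]),
   (5466, 5562, [(0, 10000), (0, 9073), (0, 7778), (0, 7086)]),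
   (5562, 5616, [(0, 10000), (0, 8865), (0, 7611), (0, 6939)]),
   (5616, 5625, [(0, 10000), (0, 8752), (0, 7520), (0, 6859)])]

theorem tab1_ok : rangeOK 6 3 5000 5625 tab1 = true := by decide +kernel

theorem adm_6_3 (a : ℝ) (h1 : 1 ≤ a) (h2 : a ≤ 9 / 8) : Adm2 6 3 a := by
  refine adm2_of_range 6 3 5000 5625 (by norm_num) (by norm_num) tab1 tab1_ok a (by linarith) ?_ ?_
  · push_cast
    linarith
  · push_cast
    linarith

/-- rows for `(6, 3)`, from `8750` to `10000` (units `1 / 10000`) -/
def tab2 : List (ℕ × ℕ × List (ℕ × ℕ)) :=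
  [(8750, 8769, [(5833, 5400), (7229, 3554), (7690, 2819), (7919, 2436)]),
   (8769, 8806, [(5905, 5358), (7276, 3516), (7729, 2785), (7954, 2405)]),
   (8806, 8880, [(6043, 5274), (7368, 3443), (7806, 2720), (8023, 2345)]),
   (8880, 9032, [(6317, 5104), (7549, 3295), (7957, 2589), (8159, 2225)]),
   (9032, 9373, [(6864, 4736), (7912, 2982), (8259, 2314), (8432, 1974)]),
   (9373, 10000, [(8029, 3794), (8687, 2218), (8905, 1659), (9014, 1384)])]

theorem tab2_ok : rangeOK 6 3 8750 10000 tab2 = true := by decide +kernel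

theorem adm_6_3' (a : ℝ) (h1 : 7 / 4 ≤ a) (h2 : a ≤ 2) : Adm2 6 3 a := by
  refine adm2_of_range 6 3 8750 10000 (by norm_num) (by norm_num) tab2 tab2_ok a (by linarith) ?_ ?_
  · push_cast
    linarith
  · push_cast
    linarith

/-- rows for `(7, 3)`, from `9183` to `10000` (units `1 / 10000`) -/
def tab3 : List (ℕ × ℕ × List (ℕ × ℕ)) :=
  [(9183, 9293, [(7389, 4342), (8261, 2656), (8550, 2032), (8695, 1718), (8781, 1532)]),
   (9293, 9633, [(7763, 4033), (8509, 2407), (8757, 1819), (8881, 1527), (8955, 1355)]),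
   (9633, 10000, [(8870, 2891), (9247, 1544), (9372, 1104), (9435, 897), (9473, 778)])]

theorem tab3_ok : rangeOK 7 3 9183 10000 tab3 = true := by decide +kernel

theorem adm_7_3 (a : ℝ) (h1 : 15 / 7 ≤ a) (h2 : a ≤ 7 / 3) : Adm2 7 3 a := by
  refine adm2_of_range 7 3 9183 10000 (by norm_num) (by norm_num) tab3 tab3_ok a (by linarith) ?_ ?_
  · push_cast
    linarith
  · push_cast
    linarith

/-- rows for `(8, 3)`, from `9375` to `10000` (units `1 / 10000`) -/
def tab4 : List (ℕ × ℕ × List (ℕ × ℕ)) :=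
  [(9375, 9562, [(8036, 3787),
     (8691, 2213),
     (8909, 1655),
     (9018, 1381),
     (9083, 1220),
     (9126, 1116)]),
   (9562, 10000, [(8644, 3162),
     (9096, 1740),
     (9247, 1262),
     (9322, 1035),
     (9367, 903),
     (9397, 819)])]

theorem tab4_ok : rangeOK 8 3 9375 10000 tab4 = true := by decide +kernel

theorem adm_8_3 (a : ℝ) (h1 : 5 / 2 ≤ a) (h2 : a ≤ 8 / 3) : Adm2 8 3 a := by
  refine adm2_of_range 8 3 9375 10000 (by norm_num) (by norm_num) tab4 tab4_ok a (by linarith) ?_ ?_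
  · push_cast
    linarith
  · push_cast
    linarith

/-- rows for `(9, 4)`, from `4444` to `5334` (units `1 / 10000`) -/
def tab5 : List (ℕ × ℕ × List (ℕ × ℕ)) :=
  [(4444, 4799, [(0, 10000),
     (0, 10000),
     (0, 10000),
     (0, 9083),
     (0, 8469),
     (0, 8050),
     (0, 7744)]),
   (4799, 5021, [(0, 10000),
     (0, 10000),
     (0, 9152),
     (0, 8283),
     (0, 7743),
     (0, 7373),
     (0, 7103)]),
   (5021, 5155, [(0, 10000),
     (0, 10000),
     (0, 8649),
     (0, 7846),
     (0, 7345),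
     (0, 7002),
     (0, 6751)]),
   (5155, 5245, [(0, 10000),
     (0, 9810),
     (0, 8369),
     (0, 7602),
     (0, 7123),
     (0, 6794),
     (0, 6553)]),
   (5245, 5312, [(0, 10000),
     (0, 9587),
     (0, 8190),
     (0, 7445),
     (0, 6980),
     (0, 6661),
     (0, 6427)]),
   (5312, 5334, [(0, 10000),
     (0, 9426),
     (0, 8061),
     (0, 7333),
     (0, 6878),
     (0, 6565),
     (0, 6336)])]

theorem tab5_ok : rangeOK 9 4 4444 5334 tab5 = true := by decide +kernel

theorem adm_9_4 (a : ℝ) (h1 : 1 ≤ a) (h2 : a ≤ 6 / 5) : Adm2 9 4 a := by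
  refine adm2_of_range 9 4 4444 5334 (by norm_num) (by norm_num) tab5 tab5_ok a (by linarith) ?_ ?_
  · push_cast
    linarith
  · push_cast
    linarith

/-- rows for `(9, 4)`, from `7777` to `10000` (units `1 / 10000`) -/
def tab6 : List (ℕ × ℕ × List (ℕ × ℕ)) :=
  [(7777, 7823, [(1551, 7256),
     (4467, 5285),
     (5395, 4405),
     (5851, 3919),
     (6120, 3613),
     (6298, 3403),
     (6424, 3250)]),
   (7823, 7897, [(1790, 7179),
     (4616, 5209),
     (5518, 4334),
     (5961, 3852),
     (6224, 3548),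
     (6397, 3341),
     (6519, 3189)]),
   (7897, 8019, [(2164, 7054),
     (4851, 5086),
     (5713, 4219),
     (6136, 3743),
     (6387, 3445),
     (6552, 3240),
     (6669, 3091)]),
   (8019, 8232, [(2757, 6842),
     (5227, 4881),
     (6024, 4028),
     (6416, 3563),
     (6649, 3272),
     (6803, 3074),
     (6911, 2930)]),
   (8232, 8641, [(3729, 6454),
     (5851, 4512),
     (6542, 3687),
     (6884, 3243),
     (7086, 2967),
     (7220, 2780),
     (7315, 2645)]),
   (8641, 9597, [(5416, 5637),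
     (6954, 3764),
     (7460, 3007),
     (7712, 2609),
     (7861, 2367),
     (7960, 2204),
     (8031, 2088)]),
   (9597, 10000, [(8756, 3031),
     (9171, 1645),
     (9309, 1185),
     (9378, 967),
     (9419, 842),
     (9447, 762),
     (9466, 706)])]

theorem tab6_ok : rangeOK 9 4 7777 10000 tab6 = true := by decide +kernel

theorem adm_9_4' (a : ℝ) (h1 : 7 / 4 ≤ a) (h2 : a ≤ 9 / 4) : Adm2 9 4 a := by
  refine adm2_of_range 9 4 7777 10000 (by norm_num) (by norm_num) tab6 tab6_ok a (by linarith) ?_ ?_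
  · push_cast
    linarith
  · push_cast
    linarith

/-- rows for `(10, 4)`, from `4000` to `4334` (units `1 / 10000`) -/
def tab7 : List (ℕ × ℕ × List (ℕ × ℕ)) :=
  [(4000, 4174, [(0, 10000),
     (0, 10000),
     (0, 10000),
     (0, 10000),
     (0, 9576),
     (0, 9079),
     (0, 8718),
     (0, 8443)]),
   (4174, 4259, [(0, 10000),
     (0, 10000),
     (0, 10000),
     (0, 9793),
     (0, 9112),
     (0, 8647),
     (0, 8310),
     (0, 8053)]),
   (4259, 4305, [(0, 10000),
     (0, 10000),
     (0, 10000),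
     (0, 9559),
     (0, 8900),
     (0, 8450),
     (0, 8124),
     (0, 7875)]),
   (4305, 4329, [(0, 10000),
     (0, 10000),
     (0, 10000),
     (0, 9437),
     (0, 8789),
     (0, 8347),
     (0, 8026),
     (0, 7781)]),
   (4329, 4334, [(0, 10000),
     (0, 10000),
     (0, 10000),
     (0, 9374),
     (0, 8732),
     (0, 8294),
     (0, 7976),
     (0, 7733)])]

theorem tab7_ok : rangeOK 10 4 4000 4334 tab7 = true := by decide +kernel

theorem adm_10_4 (a : ℝ) (h1 : 1 ≤ a) (h2 : a ≤ 13 / 12) : Adm2 10 4 a := by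
  refine adm2_of_range 10 4 4000 4334 (by norm_num) (by norm_num) tab7 tab7_ok a (by linarith) ?_ ?_
  · push_cast
    linarith
  · push_cast
    linarith

/-- rows for `(10, 4)`, from `8400` to `10000` (units `1 / 10000`) -/
def tab8 : List (ℕ × ℕ × List (ℕ × ℕ)) :=
  [(8400, 8556, [(4447, 6131),
     (6318, 4212),
     (6931, 3412),
     (7234, 2986),
     (7414, 2723),
     (7533, 2545),
     (7618, 2418),
     (7680, 2321)]),
   (8556, 8934, [(5082, 5816),
     (6734, 3924),
     (7277, 3151),
     (7546, 2743),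
     (7707, 2493),
     (7813, 2325),
     (7888, 2205),
     (7944, 2114)]),
   (8934, 10000, [(6513, 4976),
     (7679, 3186),
     (8065, 2493),
     (8257, 2137),
     (8372, 1923),
     (8448, 1780),
     (8502, 1679),
     (8542, 1603)])]

theorem tab8_ok : rangeOK 10 4 8400 10000 tab8 = true := by decide +kernel

theorem adm_10_4' (a : ℝ) (h1 : 21 / 10 ≤ a) (h2 : a ≤ 5 / 2) : Adm2 10 4 a := by
  refine adm2_of_range 10 4 8400 10000 (by norm_num) (by norm_num) tab8 tab8_ok a (by linarith) ?_ ?_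
  · push_cast
    linarith
  · push_cast
    linarith

/-- rows for `(11, 4)`, from `3636` to `3673` (units `1 / 10000`) -/
def tab9 : List (ℕ × ℕ × List (ℕ × ℕ)) :=
  [(3636, 3673, [(0, 10000),
     (0, 10000),
     (0, 10000),
     (0, 10000),
     (0, 10000),
     (0, 10000),
     (0, 9705),
     (0, 9387),
     (0, 9137)])]

theorem tab9_ok : rangeOK 11 4 3636 3673 tab9 = true := by decide +kernel

theorem adm_11_4 (a : ℝ) (h1 : 1 ≤ a) (h2 : a ≤ 101 / 100) : Adm2 11 4 a := by
  refine adm2_of_range 11 4 3636 3673 (by norm_num) (by norm_num) tab9 tab9_ok a (by linarith) ?_ ?_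
  · push_cast
    linarith
  · push_cast
    linarith

/-- rows for `(11, 4)`, from `8727` to `10000` (units `1 / 10000`) -/
def tab10 : List (ℕ × ℕ × List (ℕ × ℕ)) :=
  [(8727, 9014, [(5746, 5451),
     (7172, 3598),
     (7642, 2859),
     (7876, 2472),
     (8015, 2238),
     (8107, 2081),
     (8172, 1969),
     (8221, 1884),
     (8259, 1819)]),
   (9014, 9972, [(6800, 4781),
     (7869, 3020),
     (8224, 2347),
     (8400, 2004),
     (8506, 1799),
     (8576, 1662),
     (8625, 1566),
     (8662, 1494),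
     (8691, 1438)]),
   (9972, 10000, [(9916, 795),
     (9944, 276),
     (9953, 159),
     (9958, 114),
     (9961, 91),
     (9963, 77),
     (9964, 68),
     (9965, 62),
     (9966, 57)])]

theorem tab10_ok : rangeOK 11 4 8727 10000 tab10 = true := by decide +kernel

theorem adm_11_4' (a : ℝ) (h1 : 12 / 5 ≤ a) (h2 : a ≤ 11 / 4) : Adm2 11 4 a := by
  refine adm2_of_range 11 4 8727 10000 (by norm_num) (by norm_num) tab10 tab10_ok a (by linarith) ?_ ?_
  · push_cast
    linarith
  · push_cast
    linarith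

/-- rows for `(12, 4)`, from `8888` to `10000` (units `1 / 10000`) -/
def tab11 : List (ℕ × ℕ × List (ℕ × ℕ)) :=
  [(8888, 9181, [(6346, 5085),
     (7568, 3279),
     (7973, 2575),
     (8174, 2212),
     (8294, 1993),
     (8374, 1847),
     (8430, 1744),
     (8472, 1666),
     (8505, 1606),
     (8531, 1558)]),
   (9181, 10000, [(7383, 4347),
     (8256, 2660),
     (8547, 2035),
     (8691, 1722),
     (8778, 1535),
     (8835, 1413),
     (8876, 1326),
     (8907, 1262),
     (8930, 1213),
     (8949, 1173)])]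

theorem tab11_ok : rangeOK 12 4 8888 10000 tab11 = true := by decide +kernel

theorem adm_12_4 (a : ℝ) (h1 : 8 / 3 ≤ a) (h2 : a ≤ 3) : Adm2 12 4 a := by
  refine adm2_of_range 12 4 8888 10000 (by norm_num) (by norm_num) tab11 tab11_ok a (by linarith) ?_ ?_
  · push_cast
    linarith
  · push_cast
    linarith

end Vale.Agent.P018.H49
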